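import Mathlib
import Vale.Agent.Lib.P162.Defs
import Vale.Agent.Lib.P162.RDefs
import Vale.Agent.Lib.P162.helper95.KmatBasic
import Vale.Agent.Lib.P162.helper23.ProdTv

/-!
# P162, pool job R4 (helper44 copy): the product kernel `Bmat`

Powers of the product kernel `Bmat h j` (new card free, old cards as the `j`-card chain) are
products of the powers of the factors; `Bmat h j` is a probability kernel.
-/

namespace Vale.Agent.Lib.P162.H44

open Finset BigOperators

theorem Wmat_nonneg (h : ℕ) [NeZero h] (p q : ZMod (2 * h)) : 0 ≤ Wmat h p q := by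
  show 0 ≤ (if q = 2 * p then (1 / 2 : ℝ) else 0) + (if q = 2 * p + 1 then (1 / 2 : ℝ) else 0)
  split_ifs <;> norm_num

theorem Wmat_sum (h : ℕ) [NeZero h] (p : ZMod (2 * h)) : ∑ q, Wmat h p q = 1 := by
  show ∑ q, ((if q = 2 * p then (1 / 2 : ℝ) else 0) +
    (if q = 2 * p + 1 then (1 / 2 : ℝ) else 0)) = 1
  rw [Finset.sum_add_distrib, Finset.sum_ite_eq', Finset.sum_ite_eq', if_pos (Finset.mem_univ _),
    if_pos (Finset.mem_univ _)]
  norm_num

theorem Bmat_pow (h j : ℕ) [NeZero h] (m : ℕ) (z y : Fin (j + 1) → ZMod (2 * h)) :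
    (Bmat h j ^ m) z y =
      (Wmat h ^ m) (z 0) (y 0) * (Kmat h j ^ m) (Fin.tail z) (Fin.tail y) := by
  induction m generalizing y with
  | zero =>
    rw [pow_zero, pow_zero, pow_zero, Matrix.one_apply, Matrix.one_apply, Matrix.one_apply]
    by_cases hzy : z = y
    · subst hzy
      rw [if_pos rfl, if_pos rfl, if_pos rfl, mul_one]
    · rw [if_neg hzy]
      by_cases h0 : z 0 = y 0
      · have ht : Fin.tail z ≠ Fin.tail y := by
          intro ht
          apply hzy
          funext i
          exact Fin.cases (motive := fun i => z i = y i) h0 (fun i => congr_fun ht i) i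
        rw [if_neg ht, mul_zero]
      · rw [if_neg h0, zero_mul]
  | succ m ih =>
    rw [pow_succ, pow_succ, pow_succ, Matrix.mul_apply, Matrix.mul_apply, Matrix.mul_apply]
    rw [H23.sum_fin_succ_fun, Finset.sum_mul_sum]
    apply Finset.sum_congr rfl
    intro p _
    apply Finset.sum_congr rfl
    intro w _
    rw [ih, Bmat_apply, Fin.cons_zero, Fin.tail_cons]
    ring

theorem Bmat_nonneg (h j : ℕ) [NeZero h] (z y : Fin (j + 1) → ZMod (2 * h)) :
    0 ≤ Bmat h j z y := by
  rw [Bmat_apply, Kmat_apply_r]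
  exact mul_nonneg (Wmat_nonneg h _ _) (H95.stepProb_nonneg h j _ _)

theorem Bmat_sum (h j : ℕ) [NeZero h] (z : Fin (j + 1) → ZMod (2 * h)) :
    ∑ y, Bmat h j z y = 1 := by
  rw [H23.sum_fin_succ_fun]
  have key : ∀ (q : ZMod (2 * h)) (y' : Fin j → ZMod (2 * h)),
      Bmat h j z (Fin.cons q y') = Wmat h (z 0) q * stepProb h j (Fin.tail z) y' := by
    intro q y'
    rw [Bmat_apply, Kmat_apply_r, Fin.cons_zero, Fin.tail_cons]
  calc ∑ q, ∑ y', Bmat h j z (Fin.cons q y')
      = ∑ q, ∑ y', Wmat h (z 0) q * stepProb h j (Fin.tail z) y' := by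
        apply Finset.sum_congr rfl
        intro q _
        apply Finset.sum_congr rfl
        intro y' _
        exact key q y'
    _ = ∑ q, Wmat h (z 0) q * ∑ y', stepProb h j (Fin.tail z) y' := by
        apply Finset.sum_congr rfl
        intro q _
        rw [Finset.mul_sum]
    _ = ∑ q, Wmat h (z 0) q := by
        apply Finset.sum_congr rfl
        intro q _
        rw [H95.stepProb_sum, mul_one]
    _ = 1 := Wmat_sum h (z 0)

end Vale.Agent.Lib.P162.H44
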