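import Mathlib
import Vale.Agent.Lib.P162.Defs
import Vale.Agent.Lib.P162.Law
import Vale.Agent.Lib.P162.RDefs
import Vale.Agent.Lib.P162.CVDefs
import Vale.Agent.Lib.P162.helper57.Final
import Vale.Agent.Lib.P162.helper5.TvStep

/-!
Thorp shuffle, pool job P162-CV11: iteration of the contraction of the collision probability
over `r` blocks (`defect_cv_of`), and the bound for `k` tracked cards obtained by adding the
cards one at a time (`cv_all_of`). All automation is applied to goals over plain real numbers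
only; the chain objects are moved with `rw`, `exact` and `calc`.
-/

namespace Vale.Agent.Lib.P162.H44CV

open Finset BigOperators
open Vale.Agent.Lib.P162.H95 (stepProb_nonneg stepProb_sum Kmat_pow_sum)
open Vale.Agent.Lib.P162.H57 (tv_mono)
open Vale.Agent.Lib.P162.H6 (law_eq_pow)
open Vale.Agent.Lib.P162.H52 (unif_stationary)
open Vale.Agent.Lib.P162.H5 (tv_step)

/-- The real iteration behind the contraction. -/
theorem iter_real (m κ : ℝ) (D : ℕ → ℝ) (hm : 1 ≤ m) (hκm : κ * m ≤ 1)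
    (h0 : D 0 ≤ 1) (hstep : ∀ r, D (r + 1) ≤ κ + (1 - κ * m) * D r) (r : ℕ) :
    m * D r - 1 ≤ (m - 1) * (1 - κ * m) ^ r := by
  have hm0 : (0 : ℝ) ≤ m := by linarith
  induction r with
  | zero =>
    rw [pow_zero, mul_one]
    nlinarith [mul_le_mul_of_nonneg_left h0 hm0]
  | succ r ih =>
    have hρ : 0 ≤ 1 - κ * m := by linarith
    have h1 := mul_le_mul_of_nonneg_left (hstep r) hm0
    have h2 : m * D (r + 1) - 1 ≤ (1 - κ * m) * (m * D r - 1) := by nlinarith
    calc m * D (r + 1) - 1 ≤ (1 - κ * m) * (m * D r - 1) := h2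
      _ ≤ (1 - κ * m) * ((m - 1) * (1 - κ * m) ^ r) := mul_le_mul_of_nonneg_left ih hρ
      _ = (m - 1) * (1 - κ * m) ^ (r + 1) := by ring

/-- The identity matrix charges exactly one merged configuration. -/
theorem sum_one_cons (h j : ℕ) [NeZero h] (p : ZMod (2 * h)) (w : Fin j → ZMod (2 * h)) :
    ∑ v : Fin j → ZMod (2 * h), ∑ q : ZMod (2 * h),
      (1 : Matrix (Fin (j + 2) → ZMod (2 * h)) (Fin (j + 2) → ZMod (2 * h)) ℝ)
        (Fin.cons p (Fin.cons p w)) (Fin.cons q (Fin.cons q v)) = 1 := by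
  rw [Finset.sum_eq_single w]
  · rw [Finset.sum_eq_single p]
    · exact Matrix.one_apply_eq _
    · intro q _ hq
      refine Matrix.one_apply_ne (fun hEq => hq ?_)
      have h0 := congrFun hEq 0
      exact h0.symm
    · intro hp
      exact absurd (Finset.mem_univ _) hp
  · intro v _ hv
    refine Finset.sum_eq_zero (fun q _ => Matrix.one_apply_ne (fun hEq => hv ?_))
    have h2 : Fin.tail (Fin.tail (Fin.cons p (Fin.cons p w) : Fin (j + 2) → ZMod (2 * h)))
        = Fin.tail (Fin.tail (Fin.cons q (Fin.cons q v) : Fin (j + 2) → ZMod (2 * h))) := by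
      rw [hEq]
    exact h2.symm
  · intro hw
    exact absurd (Finset.mem_univ _) hw

/-- Comparison of the two contraction rates. -/
theorem pow_bound (h j : ℕ) (hh : 0 < h) (ε : ℝ)
    (hj : ((j + 1 : ℕ) : ℝ) ≤ (1 - ε) * (2 * h : ℝ)) (r : ℕ) :
    (2 * h : ℝ) * (1 - ((2 * h : ℝ) - j) / (16 * (h : ℝ))) ^ r
      ≤ (2 * h : ℝ) * (1 - ε / 8) ^ r := by
  have hhR : (0 : ℝ) < h := by exact_mod_cast hh
  have hj0 : (0 : ℝ) ≤ j := Nat.cast_nonneg j
  push_cast at hj
  have h1 : ((2 * h : ℝ) - j) / (16 * (h : ℝ)) ≤ 1 / 8 := by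
    rw [div_le_div_iff₀ (by positivity) (by norm_num)]
    linarith
  have h2 : ε / 8 ≤ ((2 * h : ℝ) - j) / (16 * (h : ℝ)) := by
    rw [div_le_div_iff₀ (by norm_num) (by positivity)]
    nlinarith
  exact mul_le_mul_of_nonneg_left (pow_le_pow_left₀ (by linarith) (by linarith) r)
    (by positivity)

theorem defect_cv_of (h j : ℕ) [NeZero h]
    (hQnn : ∀ (t : ℕ) (u y : Fin (j + 2) → ZMod (2 * h)), 0 ≤ (Qmat h j ^ t) u y)
    (hdef : ∀ (t : ℕ) (p : ZMod (2 * h)) (w : Fin j → ZMod (2 * h)),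
      Function.Injective (Fin.cons p w : Fin (j + 1) → ZMod (2 * h)) →
      (defect h j t (Fin.cons p w)) ^ 2
        ≤ ((2 * h : ℝ) - j) * Dcol h j t (Fin.cons p (Fin.cons p w)) - 1)
    (hcontr : ∀ (B : ℕ) (κ : ℝ), 0 ≤ κ → κ * ((2 * h : ℝ) - j) ≤ 1 →
      (∀ (v : Fin j → ZMod (2 * h)) (q q' : ZMod (2 * h)), Function.Injective v →
        (∀ i, q ≠ v i) → (∀ i, q' ≠ v i) → κ ≤ Dcol h j B (Fin.cons q (Fin.cons q' v))) →
      ∀ (p : ZMod (2 * h)) (w : Fin j → ZMod (2 * h)),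
        Function.Injective (Fin.cons p w : Fin (j + 1) → ZMod (2 * h)) → ∀ t : ℕ,
        Dcol h j (t + B) (Fin.cons p (Fin.cons p w))
          ≤ κ + (1 - κ * ((2 * h : ℝ) - j)) * Dcol h j t (Fin.cons p (Fin.cons p w)))
    (hminor : ∀ (v : Fin j → ZMod (2 * h)) (q q' : ZMod (2 * h)), Function.Injective v →
      (∀ i, q ≠ v i) → (∀ i, q' ≠ v i) →
      1 / (16 * (h : ℝ)) ≤ Dcol h j (7 * Nat.clog 2 (2 * h) + 1) (Fin.cons q (Fin.cons q' v)))
    (z : Fin (j + 1) → ZMod (2 * h)) (hz : Function.Injective z) (r : ℕ) :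
    (defect h j ((7 * Nat.clog 2 (2 * h) + 1) * r) z) ^ 2
      ≤ (2 * h : ℝ) * (1 - ((2 * h : ℝ) - j) / (16 * (h : ℝ))) ^ r := by
  have _hunused := hQnn
  have hh : (0 : ℝ) < h := by exact_mod_cast NeZero.pos h
  have hj : j + 1 ≤ 2 * h := by
    have h1 := Fintype.card_le_of_injective z hz
    rw [Fintype.card_fin, ZMod.card] at h1
    exact h1
  have hjR : (j : ℝ) + 1 ≤ 2 * h := by exact_mod_cast hj
  have hj0 : (0 : ℝ) ≤ j := Nat.cast_nonneg j
  have hz' : (Fin.cons (z 0) (Fin.tail z) : Fin (j + 1) → ZMod (2 * h)) = z :=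
    Fin.cons_self_tail z
  have hinj : Function.Injective (Fin.cons (z 0) (Fin.tail z) : Fin (j + 1) → ZMod (2 * h)) := by
    rw [hz']
    exact hz
  have hκ0 : (0 : ℝ) ≤ 1 / (16 * (h : ℝ)) := by positivity
  have hκm : 1 / (16 * (h : ℝ)) * ((2 * h : ℝ) - j) ≤ 1 := by
    rw [div_mul_eq_mul_div, one_mul, div_le_one (by positivity)]
    linarith
  have hm1 : (1 : ℝ) ≤ (2 * h : ℝ) - j := by linarith
  have hstep := hcontr (7 * Nat.clog 2 (2 * h) + 1) (1 / (16 * (h : ℝ))) hκ0 hκm hminor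
    (z 0) (Fin.tail z) hinj
  have hD0 : Dcol h j ((7 * Nat.clog 2 (2 * h) + 1) * 0)
      (Fin.cons (z 0) (Fin.cons (z 0) (Fin.tail z))) ≤ 1 := by
    rw [Nat.mul_zero, Dcol_apply, pow_zero]
    exact le_of_eq (sum_one_cons h j (z 0) (Fin.tail z))
  have hiter := iter_real ((2 * h : ℝ) - j) (1 / (16 * (h : ℝ)))
    (fun r => Dcol h j ((7 * Nat.clog 2 (2 * h) + 1) * r)
      (Fin.cons (z 0) (Fin.cons (z 0) (Fin.tail z))))
    hm1 hκm hD0 (fun r => hstep ((7 * Nat.clog 2 (2 * h) + 1) * r)) r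
  have hd := hdef ((7 * Nat.clog 2 (2 * h) + 1) * r) (z 0) (Fin.tail z) hinj
  have e0 : defect h j ((7 * Nat.clog 2 (2 * h) + 1) * r) z
      = defect h j ((7 * Nat.clog 2 (2 * h) + 1) * r) (Fin.cons (z 0) (Fin.tail z)) := by
    rw [hz']
  rw [e0]
  refine le_trans hd (le_trans hiter ?_)
  have e : 1 - 1 / (16 * (h : ℝ)) * ((2 * h : ℝ) - j)
      = 1 - ((2 * h : ℝ) - j) / (16 * (h : ℝ)) := by ring
  rw [e]
  have hρ : 0 ≤ 1 - ((2 * h : ℝ) - j) / (16 * (h : ℝ)) := by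
    rw [← e]
    linarith
  exact mul_le_mul_of_nonneg_right (by linarith) (pow_nonneg hρ r)

theorem cv_all_of (h : ℕ) [NeZero h]
    (hdefect : ∀ (j : ℕ) (z : Fin (j + 1) → ZMod (2 * h)), Function.Injective z → ∀ r : ℕ,
      (defect h j ((7 * Nat.clog 2 (2 * h) + 1) * r) z) ^ 2
        ≤ (2 * h : ℝ) * (1 - ((2 * h : ℝ) - j) / (16 * (h : ℝ))) ^ r)
    (k r : ℕ) (ε : ℝ) (hε : 0 < ε) (hε1 : ε ≤ 1)
    (hk : (k : ℝ) ≤ (1 - ε) * (2 * h : ℝ))
    (x : Fin k → ZMod (2 * h)) (hx : Function.Injective x) (T : ℕ)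
    (hT : (7 * Nat.clog 2 (2 * h) + 1) * r ≤ T) :
    (1 / 2 : ℝ) * ∑ y : Fin k → ZMod (2 * h), |trackedLaw h k T x y - unifInj h k y|
      ≤ (k : ℝ) / 2 * Real.sqrt ((2 * h : ℝ) * (1 - ε / 8) ^ r) := by
  have _hunused := hε
  have _hunused1 := hε1
  have hh : 0 < h := NeZero.pos h
  have hA : ∀ (k : ℕ) (x : Fin k → ZMod (2 * h)), Function.Injective x →
      (k : ℝ) ≤ (1 - ε) * (2 * h : ℝ) →
      ∑ y, |(Kmat h k ^ ((7 * Nat.clog 2 (2 * h) + 1) * r)) x y - unifInj h k y|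
        ≤ (k : ℝ) * Real.sqrt ((2 * h : ℝ) * (1 - ε / 8) ^ r) := by
    intro k
    induction k with
    | zero =>
      intro x _ _
      have hsum := Kmat_pow_sum h 0 ((7 * Nat.clog 2 (2 * h) + 1) * r) x
      have huniv : (Finset.univ : Finset (Fin 0 → ZMod (2 * h))) = {x} := by
        rw [Finset.eq_singleton_iff_unique_mem]
        exact ⟨Finset.mem_univ x, fun y _ => Subsingleton.elim y x⟩
      rw [huniv, Finset.sum_singleton] at hsum ⊢
      have hu : unifInj h 0 x = 1 := by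
        show (if Function.Injective x then 1 / ((2 * h).descFactorial 0 : ℝ) else 0) = 1
        rw [if_pos (Function.injective_of_subsingleton _), Nat.descFactorial_zero]
        norm_num
      rw [hu, hsum, sub_self, abs_zero, Nat.cast_zero, zero_mul]
    | succ j ih =>
      intro x hx hk
      have htx : Function.Injective (Fin.tail x) :=
        fun a b hab => Fin.succ_injective _ (hx hab)
      have hjk : (j : ℝ) ≤ (1 - ε) * (2 * h : ℝ) := by
        have hle : (j : ℝ) ≤ ((j + 1 : ℕ) : ℝ) := by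
          push_cast
          linarith
        exact le_trans hle hk
      have h1 := tv_step h j ((7 * Nat.clog 2 (2 * h) + 1) * r) x hx
      have h3 := ih (Fin.tail x) htx hjk
      have h2 := le_trans (hdefect j x hx r) (pow_bound h j hh ε hk r)
      have h4 : defect h j ((7 * Nat.clog 2 (2 * h) + 1) * r) x
          ≤ Real.sqrt ((2 * h : ℝ) * (1 - ε / 8) ^ r) :=
        le_trans (le_abs_self _) (Real.abs_le_sqrt h2)
      refine le_trans h1 (le_trans (add_le_add h4 h3) (le_of_eq ?_))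
      push_cast
      ring
  obtain ⟨t, rfl⟩ := Nat.exists_eq_add_of_le hT
  have h1 : ∑ y, |trackedLaw h k ((7 * Nat.clog 2 (2 * h) + 1) * r + t) x y - unifInj h k y|
      ≤ ∑ y, |(Kmat h k ^ ((7 * Nat.clog 2 (2 * h) + 1) * r)) x y - unifInj h k y| := by
    have e : ∀ y, trackedLaw h k ((7 * Nat.clog 2 (2 * h) + 1) * r + t) x y
        = (Kmat h k ^ ((7 * Nat.clog 2 (2 * h) + 1) * r + t)) x y :=
      fun y => law_eq_pow h k _ x y
    rw [Finset.sum_congr rfl (fun y _ => by rw [e y])]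
    exact tv_mono (Kmat h k) (fun z y => stepProb_nonneg h k z y) (fun z => stepProb_sum h k z)
      (unifInj h k) (unif_stationary h k) x _ t
  have h2 := hA k x hx hk
  calc (1 / 2 : ℝ) * ∑ y, |trackedLaw h k ((7 * Nat.clog 2 (2 * h) + 1) * r + t) x y
          - unifInj h k y|
      ≤ (1 / 2 : ℝ) * ((k : ℝ) * Real.sqrt ((2 * h : ℝ) * (1 - ε / 8) ^ r)) :=
        mul_le_mul_of_nonneg_left (le_trans h1 h2) (by norm_num)
    _ = (k : ℝ) / 2 * Real.sqrt ((2 * h : ℝ) * (1 - ε / 8) ^ r) := by ring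

end Vale.Agent.Lib.P162.H44CV
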